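import Vale.Agent.P218DH.Upper
import Mathlib.Analysis.SpecialFunctions.Gaussian.FourierTransform

/-! Lower density bounds for the area measure of the zero set of a tube function, uniform mass
ratio bounds, and Gaussian integrals against measures with bounded mass ratios. -/

open MeasureTheory Set Filter Topology Metric
open scoped ENNReal NNReal RealInnerProductSpace

namespace Vale.Agent.P218DY

open Vale.Agent.P214 (proj)
open Vale.Agent.P218 Vale.Agent.P218.H313

set_option linter.unusedSectionVars false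
set_option linter.unusedVariables false

variable {E : Type*} [NormedAddCommGroup E] [InnerProductSpace ℝ E] [FiniteDimensional ℝ E]
  [MeasurableSpace E] [BorelSpace E]
variable {m : ℕ} {W : E → ℝ} {c K : ℝ}

namespace TubeG

/-- every small tangent vector lifts to a point of the zero set -/
lemma exists_lift (hW : TubeG W c K) {y : E} (hy : W y = 0) {s : ℝ} (hs : K * s ≤ 1 / 2) {v : E}
    (hv : ⟪grad W y, v⟫ = 0) (hvs : ‖v‖ ≤ s) :
    ∃ t : ℝ, |t| ≤ 2 * K * s ^ 2 ∧ W (y + v + t • grad W y) = 0 := by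
  have hg1 : ‖grad W y‖ = 1 := hW.eik y (hW.zero_mem hy)
  set g := grad W y with hg
  have hK := hW.K0
  have hs0 : 0 ≤ s := (norm_nonneg _).trans hvs
  set a := 2 * K * s ^ 2 with ha
  have ha0 : 0 ≤ a := by positivity
  have hKs : 0 ≤ K * s := by positivity
  have hKa : K * a ≤ 1 / 2 := by rw [ha]; nlinarith
  have key : ∀ t : ℝ, |W (y + v + t • g) - t| ≤ K * (s ^ 2 + t ^ 2) := by
    intro t
    have h1 := hW.taylor y (y + v + t • g)
    have e1 : y + v + t • g - y = v + t • g := by abel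
    have e2 : ⟪g, v + t • g⟫ = t := by
      rw [inner_add_right, hv, real_inner_smul_right, real_inner_self_eq_norm_sq, hg1]; ring
    have e3 : ‖v + t • g‖ ^ 2 = ‖v‖ ^ 2 + t ^ 2 := by
      rw [norm_add_sq_real, real_inner_smul_right, real_inner_comm, hv, norm_smul, hg1,
        Real.norm_eq_abs, mul_one, sq_abs]
      ring
    rw [e1, hy, sub_zero, e2, e3] at h1
    refine h1.trans (mul_le_mul_of_nonneg_left ?_ hK)
    have := pow_le_pow_left₀ (norm_nonneg _) hvs 2
    linarith
  have hc : Continuous fun t : ℝ => W (y + v + t • g) := hW.cont.comp (by fun_prop)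
  have h1 : W (y + v + (-a) • g) ≤ 0 := by
    have := (abs_le.1 (key (-a))).2
    nlinarith
  have h2 : 0 ≤ W (y + v + a • g) := by
    have := (abs_le.1 (key a)).1
    nlinarith
  obtain ⟨t, ht, ht0⟩ := intermediate_value_Icc (show -a ≤ a by linarith) hc.continuousOn
    (show (0 : ℝ) ∈ Icc (W (y + v + (-a) • g)) (W (y + v + a • g)) from ⟨h1, h2⟩)
  exact ⟨t, abs_le.2 ht, ht0⟩

/-- the area of the zero set in a small ball centred on it, from below -/
lemma HS_ball_ge (hE : Module.finrank ℝ E = m + 1) (hW : TubeG W c K) {y : E} (hy : W y = 0)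
    {r : ℝ} (hr0 : 0 ≤ r) (h2 : K * r ≤ 1 / 2) :
    ENNReal.ofReal ((r / (1 + 2 * K * r)) ^ m)
      * (μH[m] : Measure (EuclideanSpace ℝ (Fin m))) (closedBall 0 1)
        ≤ HS m W (closedBall y r) := by
  obtain ⟨hg1, hTd, hproj⟩ := hW.tangent hE hy
  have hK := hW.K0
  have hd : 0 < 1 + 2 * K * r := by positivity
  set s := r / (1 + 2 * K * r) with hs
  have hs0 : 0 ≤ s := by positivity
  have hsr : s ≤ r := div_le_self hr0 (by have : 0 ≤ 2 * K * r := by positivity
                                          linarith)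
  have hse : s * (1 + 2 * K * r) = r := by rw [hs]; field_simp
  have hKs : K * s ≤ 1 / 2 := (mul_le_mul_of_nonneg_left hsr hK).trans h2
  set T : Submodule ℝ E := (ℝ ∙ grad W y)ᗮ with hT
  set q : E → E := fun z => proj T (z - y) with hq
  have hlip : LipschitzWith 1 q := by
    refine LipschitzWith.of_dist_le_mul fun z z' => ?_
    have h4 : q z - q z' = proj T (z - z') := by
      simp only [hq]; rw [← map_sub]; congr 1; abel
    rw [dist_eq_norm, dist_eq_norm, h4, NNReal.coe_one, one_mul]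
    exact norm_proj_apply_le T _
  have hsub : (T : Set E) ∩ closedBall 0 s ⊆ q '' (closedBall y r ∩ {z | W z = 0}) := by
    rintro v ⟨hv, hvs⟩
    rw [mem_closedBall, dist_zero_right] at hvs
    have hv0 : ⟪grad W y, v⟫ = 0 := Submodule.mem_orthogonal_singleton_iff_inner_right.1 hv
    obtain ⟨t, ht, ht0⟩ := hW.exists_lift hy hKs hv0 hvs
    have e1 : y + v + t • grad W y - y = v + t • grad W y := by abel
    refine ⟨y + v + t • grad W y, ⟨?_, ht0⟩, ?_⟩
    · rw [mem_closedBall, dist_eq_norm, e1]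
      refine (norm_add_le _ _).trans ?_
      rw [norm_smul, hg1, mul_one, Real.norm_eq_abs]
      have h5 : 2 * K * s ^ 2 ≤ s * (2 * K * r) := by
        have : K * s * s ≤ K * s * r := mul_le_mul_of_nonneg_left hsr (by positivity)
        nlinarith
      nlinarith
    · simp only [hq]
      rw [e1, hproj, inner_add_right, hv0, real_inner_smul_right, real_inner_self_eq_norm_sq, hg1]
      simp
  rw [← hm_disc hTd hs0]
  refine (measure_mono hsub).trans ?_
  refine (hlip.hausdorffMeasure_image_le (Nat.cast_nonneg m) _).trans (le_of_eq ?_)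
  unfold HS
  rw [Measure.restrict_apply isClosed_closedBall.measurableSet]
  simp

end TubeG

/-- DY-H2: lower density of the model -/
theorem HS_lower (hE : Module.finrank ℝ E = m + 1) {W : E → ℝ} {c K : ℝ} (hW : TubeG W c K)
    {y : E} (hy : W y = 0) {ε : ℝ} (hε : 0 < ε) :
    ∀ᶠ r in 𝓝[>] (0 : ℝ), ENNReal.ofReal ((1 - ε) * r ^ m)
      * (μH[m] : Measure (EuclideanSpace ℝ (Fin m))) (closedBall 0 1)
        ≤ HS m W (closedBall y r) := by
  have h1 : Tendsto (fun r : ℝ => ((1 + 2 * K * r)⁻¹) ^ m) (𝓝 0) (𝓝 (((1 + 2 * K * 0)⁻¹) ^ m)) := by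
    refine Tendsto.pow (Tendsto.inv₀ ?_ (by simp)) m
    exact (by fun_prop : Continuous fun r : ℝ => 1 + 2 * K * r).tendsto 0
  have h2 : Tendsto (fun r : ℝ => K * r) (𝓝 0) (𝓝 (K * 0)) := (continuous_const_mul K).tendsto 0
  simp only [mul_zero, add_zero, inv_one, one_pow] at h1 h2
  have h3 := (h1.eventually (lt_mem_nhds (show 1 - ε < 1 by linarith))).and
    (h2.eventually (gt_mem_nhds (show (0 : ℝ) < 1 / 2 by norm_num)))
  filter_upwards [nhdsWithin_le_nhds h3, self_mem_nhdsWithin] with r hr hr0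
  have hr0' : 0 < r := hr0
  refine le_trans ?_ (hW.HS_ball_ge hE hy hr0'.le hr.2.le)
  gcongr
  rw [div_eq_mul_inv, mul_pow, mul_comm]
  exact mul_le_mul_of_nonneg_left hr.1.le (by positivity)

/-- balls around points of the zero set have positive area -/
theorem HS_pos (hE : Module.finrank ℝ E = m + 1) {W : E → ℝ} {c K : ℝ} (hW : TubeG W c K)
    {y : E} (hy : W y = 0) {U : Set E} (hU : U ∈ 𝓝 y) : 0 < HS m W U := by
  have hH := isAddHaar_euc m
  obtain ⟨ε, hε, hball⟩ := Metric.nhds_basis_closedBall.mem_iff.1 hU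
  obtain ⟨r, hr1, hr2⟩ := ((HS_lower hE hW hy (show (0 : ℝ) < 1 / 2 by norm_num)).and
    (Ioo_mem_nhdsGT hε)).exists
  refine lt_of_lt_of_le ?_ (hr1.trans (measure_mono
    ((closedBall_subset_closedBall hr2.2.le).trans hball)))
  have h0 := hr2.1
  refine ENNReal.mul_pos (ENNReal.ofReal_pos.2 (by positivity)).ne' ?_
  exact (measure_closedBall_pos _ _ one_pos).ne'

theorem eq_zero_of_ae_HS (hE : Module.finrank ℝ E = m + 1) {W : E → ℝ} {c K : ℝ}
    (hW : TubeG W c K) {f : E → ℝ} (hf : Continuous f) (h0 : ∀ᵐ x ∂(HS m W), f x = 0) :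
    ∀ x, W x = 0 → f x = 0 := by
  intro x hx
  by_contra hne
  have h1 : {y | ¬ f y = 0} ∈ 𝓝 x := hf.continuousAt.eventually_ne hne
  exact (HS_pos hE hW hx h1).ne' (ae_iff.1 h0)

/-- Gaussians are integrable for the Lebesgue measure -/
lemma integrable_gauss_vol {b : ℝ} (hb : 0 < b) :
    Integrable (fun z : E => Real.exp (-b * ‖z‖ ^ 2)) volume := by
  have h := (GaussianFourier.integrable_cexp_neg_mul_sq_norm_add (V := E) (b := (b : ℂ))
    (by simpa using hb) 0 0).norm
  refine h.congr (Eventually.of_forall fun z => ?_)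
  simp only [zero_mul, add_zero, Complex.norm_exp]
  congr 1
  rw [← Complex.ofReal_pow, ← Complex.ofReal_neg, ← Complex.ofReal_mul, Complex.ofReal_re]

/-- Gaussian integrals against measures with bounded mass of unit balls -/
theorem gauss_le {b : ℝ} (hb : 0 < b) (CR : ℝ) : ∃ G : ℝ, 0 ≤ G ∧ ∀ μ : Measure E,
    IsFiniteMeasureOnCompacts μ → (∀ x, μ.real (closedBall x 1) ≤ CR) →
      ∫⁻ x, ENNReal.ofReal (Real.exp (-b * ‖x‖ ^ 2)) ∂μ ≤ ENNReal.ofReal G := by
  set V : ℝ≥0∞ := (volume : Measure E) (closedBall 0 1) with hV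
  have hV0 : V ≠ 0 := (measure_closedBall_pos _ _ one_pos).ne'
  have hVt : V ≠ ⊤ := (isCompact_closedBall _ _).measure_lt_top.ne
  set I : ℝ≥0∞ := ∫⁻ z : E, ENNReal.ofReal (Real.exp (-(b / 2) * ‖z‖ ^ 2)) with hI
  have hIt : I ≠ ⊤ := (integrable_gauss_vol (E := E) (half_pos hb)).lintegral_lt_top.ne
  set D : ℝ≥0∞ := ENNReal.ofReal (Real.exp b) * ENNReal.ofReal CR * I * V⁻¹ with hD
  have hDt : D ≠ ⊤ := ENNReal.mul_ne_top (ENNReal.mul_ne_top
    (ENNReal.mul_ne_top ENNReal.ofReal_ne_top ENNReal.ofReal_ne_top) hIt)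
    (ENNReal.inv_ne_top.2 hV0)
  refine ⟨D.toReal, ENNReal.toReal_nonneg, fun μ hμ hR => ?_⟩
  rw [ENNReal.ofReal_toReal hDt]
  set F : E → E → ℝ≥0∞ := fun x z => {p : E × E | dist p.1 p.2 ≤ 1}.indicator
    (fun p => ENNReal.ofReal (Real.exp b) * ENNReal.ofReal (Real.exp (-(b / 2) * ‖p.2‖ ^ 2)))
      (x, z) with hF
  have hFm : Measurable (Function.uncurry F) := by
    refine Measurable.indicator ?_ (isClosed_le continuous_dist continuous_const).measurableSet
    exact measurable_const.mul (Continuous.measurable (by fun_prop)).ennreal_ofReal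
  have h1 : ∀ x : E, ENNReal.ofReal (Real.exp (-b * ‖x‖ ^ 2)) * V ≤ ∫⁻ z, F x z := by
    intro x
    rw [hV, ← Measure.addHaar_closedBall_center volume x, ← lintegral_indicator_const
      isClosed_closedBall.measurableSet]
    refine lintegral_mono fun z => ?_
    by_cases hz : z ∈ closedBall x 1
    · have hz' : dist x z ≤ 1 := by rwa [mem_closedBall, dist_comm] at hz
      simp only [hF]
      rw [indicator_of_mem hz, indicator_of_mem (show (x, z) ∈ {p : E × E | dist p.1 p.2 ≤ 1}
        from hz'), ← ENNReal.ofReal_mul (Real.exp_pos _).le, ← Real.exp_add]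
      apply ENNReal.ofReal_le_ofReal
      apply Real.exp_le_exp.2
      have h2 : ‖z‖ ≤ ‖x‖ + 1 := by
        have := norm_le_norm_add_norm_sub' z x
        rw [mem_closedBall, dist_eq_norm] at hz
        linarith
      have h3 : ‖z‖ ^ 2 ≤ (‖x‖ + 1) ^ 2 := pow_le_pow_left₀ (norm_nonneg _) h2 2
      have h4 : ‖z‖ ^ 2 ≤ 2 * ‖x‖ ^ 2 + 2 := by nlinarith [sq_nonneg (‖x‖ - 1)]
      nlinarith
    · rw [indicator_of_notMem hz]; exact zero_le
  have h2 : ∀ z : E, ∫⁻ x, F x z ∂μ ≤ ENNReal.ofReal (Real.exp b) * ENNReal.ofReal CR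
      * ENNReal.ofReal (Real.exp (-(b / 2) * ‖z‖ ^ 2)) := by
    intro z
    have e : (fun x => F x z) = (closedBall z 1).indicator fun _ =>
        ENNReal.ofReal (Real.exp b) * ENNReal.ofReal (Real.exp (-(b / 2) * ‖z‖ ^ 2)) := by
      ext x
      simp only [hF, indicator, mem_ofPred_eq, mem_closedBall]
    rw [e, lintegral_indicator_const isClosed_closedBall.measurableSet, mul_right_comm]
    gcongr
    rw [← ENNReal.ofReal_toReal (isCompact_closedBall z 1).measure_lt_top.ne]
    exact ENNReal.ofReal_le_ofReal (hR z)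
  have h3 : (∫⁻ x, ENNReal.ofReal (Real.exp (-b * ‖x‖ ^ 2)) ∂μ) * V
      ≤ ENNReal.ofReal (Real.exp b) * ENNReal.ofReal CR * I := by
    rw [← lintegral_mul_const' _ _ hVt, hI, ← lintegral_const_mul' _ _
      (ENNReal.mul_ne_top ENNReal.ofReal_ne_top ENNReal.ofReal_ne_top)]
    refine (lintegral_mono h1).trans ?_
    rw [lintegral_lintegral_swap hFm.aemeasurable]
    exact lintegral_mono h2
  rw [hD, ← div_eq_mul_inv]
  exact (ENNReal.le_div_iff_mul_le (Or.inl hV0) (Or.inl hVt)).2 h3

theorem gauss16 (hm : 0 < m) {CR : ℝ} : ∃ G : ℝ, ∀ μ : Measure E, IsFiniteMeasureOnCompacts μ →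
    Ratio m μ CR → ∫⁻ x, ENNReal.ofReal (Real.exp (-‖x‖ ^ 2 / 16)) ∂μ ≤ ENNReal.ofReal G := by
  obtain ⟨G, -, hG⟩ := gauss_le (E := E) (show (0 : ℝ) < 1 / 16 by norm_num) CR
  refine ⟨G, fun μ hμ hR => le_trans (le_of_eq ?_) (hG μ hμ fun x => ?_)⟩
  · refine lintegral_congr fun x => ?_
    congr 2
    ring
  · simpa using hR x 1 one_pos le_rfl

/-- uniform mass ratio bound for the model -/
theorem ratio_HS (hE : Module.finrank ℝ E = m + 1) (K : ℝ) :
    ∃ CR : ℝ, 0 ≤ CR ∧ ∀ (W : E → ℝ) (c : ℝ), TubeG W c K → Ratio m (HS m W) CR := by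
  have hH := isAddHaar_euc m
  by_cases hK1 : 1 ≤ K
  swap
  · exact ⟨0, le_rfl, fun W c hW => absurd hW.K1 hK1⟩
  have hK : 0 < K := one_pos.trans_le hK1
  set ω := (μH[m] : Measure (EuclideanSpace ℝ (Fin m))).real (closedBall 0 1) with hω
  have hω0 : 0 ≤ ω := measureReal_nonneg
  set ρ := 1 / (4 * K) with hρ
  have hρ0 : 0 < ρ := by positivity
  have hKρ : K * (2 * ρ) < 1 := by rw [hρ]; field_simp; norm_num
  set A := (Lf K (2 * ρ) * 2) ^ m * ω with hA
  have hL := Lf_pos (show 0 ≤ K * (2 * ρ) by positivity) hKρ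
  have hA0 : 0 ≤ A := by positivity
  have small : ∀ (W : E → ℝ) (c : ℝ), TubeG W c K → ∀ x r, 0 ≤ r → r ≤ ρ →
      (HS m W).real (closedBall x r) ≤ A * r ^ m := by
    intro W c hW x r hr hrρ
    by_cases hne : ∃ y ∈ closedBall x r, W y = 0
    · obtain ⟨y, hy, hy0⟩ := hne
      have hlt : K * (2 * r) < 1 :=
        (mul_le_mul_of_nonneg_left (by linarith) hK.le).trans_lt hKρ
      have h1 := hW.HS_ball_le hE hy0 (show 0 ≤ 2 * r by positivity) hlt
      have h2 : closedBall x r ⊆ closedBall y (2 * r) := by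
        apply closedBall_subset_closedBall'
        rw [mem_closedBall, dist_comm] at hy
        linarith
      have hL' := Lf_pos (show 0 ≤ K * (2 * r) by positivity) hlt
      have h3 := ENNReal.toReal_mono (ENNReal.mul_ne_top ENNReal.ofReal_ne_top
        (isCompact_closedBall _ _).measure_lt_top.ne) ((measure_mono h2).trans h1)
      rw [ENNReal.toReal_mul, ENNReal.toReal_ofReal (by positivity)] at h3
      refine h3.trans ?_
      have h4 : Lf K (2 * r) ≤ Lf K (2 * ρ) := Lf_mono hK.le (by positivity) (by linarith) hKρ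
      calc (Lf K (2 * r) * (2 * r)) ^ m * ω ≤ (Lf K (2 * ρ) * (2 * r)) ^ m * ω := by gcongr
        _ = A * r ^ m := by rw [hA, ← mul_assoc, mul_pow _ r]; ring
    · have h1 : HS m W (closedBall x r) = 0 := by
        unfold HS
        rw [Measure.restrict_apply isClosed_closedBall.measurableSet]
        convert measure_empty (μ := (μH[m] : Measure E))
        exact eq_empty_iff_forall_notMem.2 fun y hy => hne ⟨y, hy.1, hy.2⟩
      rw [Measure.real, h1, ENNReal.toReal_zero]
      positivity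
  obtain ⟨t, -, htf, hcov⟩ := finite_cover_balls_of_compact (isCompact_closedBall (0 : E) 1) hρ0
  refine ⟨A + htf.toFinset.card * A, by positivity, fun W c hW x r hr hr1 => ?_⟩
  have hcA : 0 ≤ (htf.toFinset.card : ℝ) * A := by positivity
  rcases le_total r ρ with h | h
  · refine (small W c hW x r hr.le h).trans ?_
    gcongr
    linarith
  · have := locFin_HS hE hW
    have h1 : closedBall x r ⊆ ⋃ p ∈ htf.toFinset, closedBall (x + p) ρ := by
      intro y hy
      have h2 : y - x ∈ closedBall (0 : E) 1 := by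
        rw [mem_closedBall, dist_zero_right, ← dist_eq_norm]
        exact (mem_closedBall.1 hy).trans hr1
      obtain ⟨p, hp, hyp⟩ := mem_iUnion₂.1 (hcov h2)
      refine mem_iUnion₂.2 ⟨p, htf.mem_toFinset.2 hp, ?_⟩
      rw [mem_ball, dist_eq_norm] at hyp
      rw [mem_closedBall, dist_eq_norm, ← sub_sub]
      exact hyp.le
    have h3 : (HS m W).real (closedBall x r) ≤ ∑ p ∈ htf.toFinset,
        (HS m W).real (closedBall (x + p) ρ) :=
      (measureReal_mono h1 (measure_biUnion_lt_top htf.toFinset.finite_toSet fun p _ =>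
        (isCompact_closedBall _ _).measure_lt_top).ne).trans (measureReal_biUnion_finset_le _ _)
    have h4 : ∑ p ∈ htf.toFinset, (HS m W).real (closedBall (x + p) ρ)
        ≤ htf.toFinset.card * (A * r ^ m) := by
      rw [← nsmul_eq_mul]
      refine Finset.sum_le_card_nsmul _ _ _ fun p _ => (small W c hW _ ρ hρ0.le le_rfl).trans ?_
      gcongr
    have h5 : 0 ≤ A * r ^ m := by positivity
    nlinarith

end Vale.Agent.P218DY
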