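import Vale.Agent.P218DY.Tube
import Vale.Agent.P218.H313.K

/-! Upper density bounds for the area measure of the zero set of a tube function. -/

open MeasureTheory Set Filter Topology Metric
open scoped ENNReal NNReal RealInnerProductSpace

namespace Vale.Agent.P218DY

open Vale.Agent.P214 (proj)
open Vale.Agent.P218 Vale.Agent.P218.H313

set_option linter.unusedSectionVars false
set_option linter.unusedVariables false

variable {E : Type*} [NormedAddCommGroup E] [InnerProductSpace ℝ E] [FiniteDimensional ℝ E]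
  [MeasurableSpace E] [BorelSpace E]
variable {m : ℕ} {W : E → ℝ} {c K : ℝ}

/-- the expansion factor at scale `r` -/
noncomputable def Lf (K r : ℝ) : ℝ := (√(1 - (K * r) ^ 2))⁻¹

lemma Lf_pos {K r : ℝ} (h0 : 0 ≤ K * r) (h1 : K * r < 1) : 0 < Lf K r := by
  have : 0 < 1 - (K * r) ^ 2 := by nlinarith
  unfold Lf; positivity

lemma Lf_mono {K r s : ℝ} (hK : 0 ≤ K) (hr : 0 ≤ r) (hrs : r ≤ s) (h1 : K * s < 1) :
    Lf K r ≤ Lf K s := by
  have h0 : 0 ≤ K * r := by positivity
  have h2 : K * r ≤ K * s := mul_le_mul_of_nonneg_left hrs hK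
  have h3 : 0 < 1 - (K * s) ^ 2 := by nlinarith
  unfold Lf
  apply inv_anti₀ (Real.sqrt_pos.2 h3)
  apply Real.sqrt_le_sqrt
  nlinarith

lemma Lf_tendsto (K : ℝ) : Tendsto (Lf K) (𝓝 0) (𝓝 1) := by
  have h2 : ContinuousAt (Lf K) 0 := by
    unfold Lf
    apply ContinuousAt.inv₀ (by fun_prop)
    simp
  have h3 := h2.tendsto
  have h4 : Lf K 0 = 1 := by simp [Lf]
  rwa [h4] at h3

/-- an isometric parametrisation of an `m`-plane -/
lemma exists_param {T : Submodule ℝ E} (hT : Module.finrank ℝ T = m) :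
    ∃ i : EuclideanSpace ℝ (Fin m) → E, Isometry i ∧ range i = (T : Set E) ∧
      ∀ p, ‖i p‖ = ‖p‖ := by
  let b := (stdOrthonormalBasis ℝ T).reindex (finCongr hT)
  let i : EuclideanSpace ℝ (Fin m) → E := fun p => ((b.repr.symm p : T) : E)
  refine ⟨i, (isometry_subtype_coe).comp b.repr.symm.isometry, ?_, fun p => ?_⟩
  · ext y
    constructor
    · rintro ⟨p, rfl⟩; exact (b.repr.symm p).2
    · intro hy
      exact ⟨b.repr ⟨y, hy⟩, by simp [i]⟩
  · have h3 : ‖(b.repr.symm p : T)‖ = ‖p‖ := b.repr.symm.norm_map p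
    exact h3

/-- the area of a disc in an `m`-plane -/
lemma hm_disc {T : Submodule ℝ E} (hT : Module.finrank ℝ T = m) {s : ℝ} (hs : 0 ≤ s) :
    (μH[m] : Measure E) ((T : Set E) ∩ closedBall 0 s) = ENNReal.ofReal (s ^ m)
      * (μH[m] : Measure (EuclideanSpace ℝ (Fin m))) (closedBall 0 1) := by
  obtain ⟨i, hi, hr, hn⟩ := exists_param hT
  have hH := isAddHaar_euc m
  have h1 : (T : Set E) ∩ closedBall 0 s = i '' closedBall 0 s := by
    ext y
    constructor
    · rintro ⟨hy, hy2⟩
      rw [← hr] at hy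
      obtain ⟨p, rfl⟩ := hy
      refine ⟨p, ?_, rfl⟩
      rw [mem_closedBall, dist_zero_right] at hy2 ⊢
      rwa [hn] at hy2
    · rintro ⟨p, hp, rfl⟩
      refine ⟨hr ▸ mem_range_self p, ?_⟩
      rw [mem_closedBall, dist_zero_right] at hp ⊢
      rwa [hn]
  rw [h1, hi.hausdorffMeasure_image (Or.inl (Nat.cast_nonneg m)),
    Measure.addHaar_closedBall' _ _ hs, finrank_euclideanSpace_fin]

namespace TubeG

/-- the tangent plane at a point of the zero set -/
lemma tangent (hE : Module.finrank ℝ E = m + 1) (hW : TubeG W c K) {x : E} (hx : W x = 0) :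
    ‖grad W x‖ = 1 ∧ Module.finrank ℝ ((ℝ ∙ grad W x)ᗮ : Submodule ℝ E) = m ∧
      ∀ v, proj (ℝ ∙ grad W x)ᗮ v = v - ⟪grad W x, v⟫ • grad W x := by
  have hg1 : ‖grad W x‖ = 1 := hW.eik x (hW.zero_mem hx)
  have hg0 : grad W x ≠ 0 := by intro h; rw [h, norm_zero] at hg1; norm_num at hg1
  refine ⟨hg1, ?_, fun v => ?_⟩
  · have : Fact (Module.finrank ℝ E = m + 1) := ⟨hE⟩
    exact Submodule.finrank_orthogonal_span_singleton hg0
  · unfold proj
    have h1 : (ℝ ∙ grad W x)ᗮ.starProjection v = v - (ℝ ∙ grad W x).starProjection v :=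
      Submodule.starProjection_orthogonal_val v
    rw [h1, Submodule.starProjection_unit_singleton ℝ hg1]

/-- the projection of the piece of the zero set in a ball to the tangent plane -/
lemma map_le (hE : Module.finrank ℝ E = m + 1) (hW : TubeG W c K) {x : E} (hx : W x = 0)
    {r : ℝ} (hr0 : 0 ≤ r) (h2 : K * r < 1) :
    ((μH[m] : Measure E).restrict ({z | W z = 0} ∩ closedBall x r)).map
      (fun y => proj (ℝ ∙ grad W x)ᗮ (y - x))
      ≤ ENNReal.ofReal (Lf K r ^ m) • (μH[m] : Measure E).restrict (ℝ ∙ grad W x)ᗮ := by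
  obtain ⟨hg1, hTd, hproj⟩ := hW.tangent hE hx
  set g := grad W x with hg
  set T : Submodule ℝ E := (ℝ ∙ g)ᗮ with hT
  have hK := hW.K0
  have hKr0 : 0 ≤ K * r := by positivity
  have hpos : 0 < 1 - (K * r) ^ 2 := by nlinarith
  have hLpos : 0 < Lf K r := Lf_pos hKr0 h2
  set A : Set E := {z | W z = 0} ∩ closedBall x r with hA
  set q : E → E := fun y => proj T (y - x) with hq
  have hqc : Continuous q := (proj T).continuous.comp (by fun_prop)
  have hqT : ∀ y, q y ∈ T := fun y => H552.proj_mem T _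
  have hexp : ∀ y ∈ A, ∀ y' ∈ A, dist y y' ≤ Lf K r * dist (q y) (q y') := by
    intro y hy y' hy'
    have h3 := hW.flat hy.2 hy'.2
    have hy0 : W y = 0 := hy.1
    have hy0' : W y' = 0 := hy'.1
    rw [hy0, hy0', sub_zero, zero_sub, abs_neg] at h3
    have h4 : q y - q y' = proj T (y - y') := by
      simp only [hq]; rw [← map_sub]; congr 1; abel
    have h5 : ‖proj T (y - y')‖ ^ 2 = ‖y - y'‖ ^ 2 - ⟪g, y - y'⟫ ^ 2 :=
      H63.norm_proj_sq hg1 hproj _
    have h6 : (1 - (K * r) ^ 2) * ‖y - y'‖ ^ 2 ≤ ‖proj T (y - y')‖ ^ 2 := by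
      rw [h5]
      have h7 : ⟪g, y - y'⟫ ^ 2 ≤ (K * r * ‖y - y'‖) ^ 2 := by
        rw [← sq_abs]; exact pow_le_pow_left₀ (abs_nonneg _) h3 2
      nlinarith
    rw [dist_eq_norm, dist_eq_norm, h4]
    have h8 : √(1 - (K * r) ^ 2) * ‖y - y'‖ ≤ ‖proj T (y - y')‖ := by
      apply le_of_sq_le_sq _ (norm_nonneg _)
      rw [mul_pow, Real.sq_sqrt hpos.le]
      exact h6
    have h9 : 0 < √(1 - (K * r) ^ 2) := Real.sqrt_pos.2 hpos
    calc ‖y - y'‖ = Lf K r * (√(1 - (K * r) ^ 2) * ‖y - y'‖) := by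
          unfold Lf
          rw [← mul_assoc, inv_mul_cancel₀ h9.ne', one_mul]
      _ ≤ Lf K r * ‖proj T (y - y')‖ := mul_le_mul_of_nonneg_left h8 hLpos.le
  have hmeasle : ∀ s : Set E, MeasurableSet s →
      (μH[m] : Measure E) (A ∩ q ⁻¹' s)
        ≤ ENNReal.ofReal (Lf K r ^ m) * (μH[m] : Measure E) (T ∩ s) := by
    intro s hs
    have hanti : AntilipschitzWith (Lf K r).toNNReal (fun y : A => q y) := by
      refine AntilipschitzWith.of_le_mul_dist fun y y' => ?_
      rw [Real.coe_toNNReal _ hLpos.le]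
      exact hexp y y.2 y' y'.2
    have h3 := hanti.hausdorffMeasure_preimage_le (d := (m : ℝ)) (Nat.cast_nonneg m)
      ((T : Set E) ∩ s)
    have h4 : (Subtype.val : A → E) '' ((fun y : A => q y) ⁻¹' ((T : Set E) ∩ s))
        = A ∩ q ⁻¹' s := by
      ext y
      constructor
      · rintro ⟨z, hz, rfl⟩
        exact ⟨z.2, hz.2⟩
      · rintro ⟨hyA, hys⟩
        exact ⟨⟨y, hyA⟩, ⟨hqT y, hys⟩, rfl⟩
    rw [← h4, isometry_subtype_coe.hausdorffMeasure_image (Or.inl (Nat.cast_nonneg m))]
    refine h3.trans (le_of_eq ?_)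
    congr 1
    rw [ENNReal.rpow_natCast, ENNReal.ofReal_pow hLpos.le]
    rfl
  refine Measure.le_iff.2 fun s hs => ?_
  rw [Measure.map_apply hqc.measurable hs, Measure.restrict_apply (hqc.measurable hs),
    Measure.smul_apply, Measure.restrict_apply hs, smul_eq_mul, inter_comm _ A, inter_comm s]
  exact hmeasle s hs

/-- the area of the zero set in a small ball centred on it -/
lemma HS_ball_le (hE : Module.finrank ℝ E = m + 1) (hW : TubeG W c K) {x : E} (hx : W x = 0)
    {r : ℝ} (hr0 : 0 ≤ r) (h2 : K * r < 1) :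
    HS m W (closedBall x r) ≤ ENNReal.ofReal ((Lf K r * r) ^ m)
      * (μH[m] : Measure (EuclideanSpace ℝ (Fin m))) (closedBall 0 1) := by
  obtain ⟨hg1, hTd, hproj⟩ := hW.tangent hE hx
  have hLpos : 0 < Lf K r := Lf_pos (by have := hW.K0; positivity) h2
  have h1 := Measure.le_iff.1 (hW.map_le hE hx hr0 h2) (closedBall 0 r)
    isClosed_closedBall.measurableSet
  have hqc : Continuous fun y => proj (ℝ ∙ grad W x)ᗮ (y - x) :=
    (proj _).continuous.comp (by fun_prop)
  rw [Measure.map_apply hqc.measurable isClosed_closedBall.measurableSet,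
    Measure.restrict_apply (hqc.measurable isClosed_closedBall.measurableSet),
    Measure.smul_apply, Measure.restrict_apply isClosed_closedBall.measurableSet, smul_eq_mul,
    inter_comm (closedBall 0 r), hm_disc hTd hr0, ← mul_assoc,
    ← ENNReal.ofReal_mul (by positivity), ← mul_pow] at h1
  refine le_trans ?_ h1
  unfold HS
  rw [Measure.restrict_apply isClosed_closedBall.measurableSet]
  apply measure_mono
  rintro y ⟨hy1, hy2⟩
  refine ⟨?_, hy2, hy1⟩
  rw [mem_preimage, mem_closedBall, dist_zero_right]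
  refine (norm_proj_apply_le _ _).trans ?_
  rwa [← dist_eq_norm]

/-- the kernel integral at a point of the zero set -/
lemma lint_ker_le (hE : Module.finrank ℝ E = m + 1) (hW : TubeG W c K) {x : E} (hx : W x = 0)
    {r : ℝ} (hr0 : 0 < r) (h2 : K * r < 1) :
    ∫⁻ y, ENNReal.ofReal (ker (r⁻¹ • (y - x))) ∂(HS m W)
      ≤ ENNReal.ofReal (Lf K r ^ m * (r ^ m * om m)) := by
  obtain ⟨hg1, hTd, hproj⟩ := hW.tangent hE hx
  have hLpos : 0 < Lf K r := Lf_pos (by have := hW.K0; positivity) h2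
  have hmap := hW.map_le hE hx hr0.le h2
  set T : Submodule ℝ E := (ℝ ∙ grad W x)ᗮ with hT
  set S : Set E := {z | W z = 0} with hS
  set A : Set E := S ∩ closedBall x r with hA
  set q : E → E := fun y => proj T (y - x) with hq
  have hqc : Continuous q := (proj T).continuous.comp (by fun_prop)
  have hmeas : Measurable fun z : E => ENNReal.ofReal (ker (r⁻¹ • z)) :=
    (continuous_ker.comp (continuous_const_smul _)).measurable.ennreal_ofReal
  calc ∫⁻ y in S, ENNReal.ofReal (ker (r⁻¹ • (y - x))) ∂(μH[m] : Measure E)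
      = ∫⁻ y in A, ENNReal.ofReal (ker (r⁻¹ • (y - x))) ∂(μH[m] : Measure E) := by
        have e1 : ∫⁻ y in S, ENNReal.ofReal (ker (r⁻¹ • (y - x))) ∂(μH[m] : Measure E)
            = ∫⁻ y in S, (closedBall x r).indicator
              (fun y => ENNReal.ofReal (ker (r⁻¹ • (y - x)))) y ∂(μH[m] : Measure E) := by
          apply lintegral_congr
          intro y
          by_cases hy : y ∈ closedBall x r
          · rw [indicator_of_mem hy]
          · rw [indicator_of_notMem hy]
            rw [mem_closedBall, not_le, dist_eq_norm] at hy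
            rw [ker_eq_zero, ENNReal.ofReal_zero]
            rw [norm_smul, norm_inv, Real.norm_eq_abs, abs_of_pos hr0]
            rw [le_inv_mul_iff₀ hr0, mul_one]
            exact hy.le
        rw [e1, lintegral_indicator isClosed_closedBall.measurableSet,
          Measure.restrict_restrict isClosed_closedBall.measurableSet, inter_comm]
    _ ≤ ∫⁻ y in A, ENNReal.ofReal (ker (r⁻¹ • q y)) ∂(μH[m] : Measure E) := by
        apply lintegral_mono
        intro y
        apply ENNReal.ofReal_le_ofReal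
        apply ker_anti
        rw [norm_smul, norm_smul]
        apply mul_le_mul_of_nonneg_left _ (norm_nonneg _)
        exact norm_proj_apply_le T _
    _ = ∫⁻ z, ENNReal.ofReal (ker (r⁻¹ • z)) ∂(((μH[m] : Measure E).restrict A).map q) := by
        rw [lintegral_map hmeas hqc.measurable]
    _ ≤ ∫⁻ z, ENNReal.ofReal (ker (r⁻¹ • z))
          ∂(ENNReal.ofReal (Lf K r ^ m) • (μH[m] : Measure E).restrict T) :=
        lintegral_mono' hmap le_rfl
    _ = ENNReal.ofReal (Lf K r ^ m) * ENNReal.ofReal (r ^ m * om m) := by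
        rw [lintegral_smul_measure, smul_eq_mul, lintegral_ker_plane hTd hr0]
    _ = _ := by rw [← ENNReal.ofReal_mul (by positivity)]

/-- the density ratio at a point of the zero set -/
lemma th_le (hE : Module.finrank ℝ E = m + 1) (hW : TubeG W c K) {x : E} (hx : W x = 0)
    {r : ℝ} (hr0 : 0 < r) (h2 : K * r < 1) : th m (HS m W) x r ≤ Lf K r ^ m * om m := by
  have hom : 0 ≤ om m := integral_nonneg fun p => ker_nonneg _
  have hLpos : 0 < Lf K r := Lf_pos (by have := hW.K0; positivity) h2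
  have hint : ∫ y, ker (r⁻¹ • (y - x)) ∂(HS m W) ≤ Lf K r ^ m * (r ^ m * om m) := by
    rw [integral_eq_lintegral_of_nonneg_ae (Eventually.of_forall fun y => ker_nonneg _)
      (continuous_ker.comp (by fun_prop)).aestronglyMeasurable]
    exact ENNReal.toReal_le_of_le_ofReal (by positivity) (hW.lint_ker_le hE hx hr0 h2)
  unfold th
  rw [div_le_iff₀ (by positivity)]
  refine hint.trans (le_of_eq (by ring))

end TubeG

/-- DY-H1: uniform upper density of the model -/
theorem th_HS_le (hE : Module.finrank ℝ E = m + 1) {K b : ℝ} (hb : om m < b) :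
    ∃ r₀ > 0, ∀ (W : E → ℝ) (c : ℝ), TubeG W c K → ∀ x, W x = 0 → ∀ r, 0 < r → r ≤ r₀ →
      th m (HS m W) x r ≤ b := by
  have h1 : Tendsto (fun r => Lf K r ^ m * om m) (𝓝 0) (𝓝 (1 ^ m * om m)) :=
    ((Lf_tendsto K).pow m).mul_const _
  rw [one_pow, one_mul] at h1
  have h2 : Tendsto (fun r : ℝ => K * r) (𝓝 0) (𝓝 (K * 0)) := (continuous_const_mul K).tendsto 0
  rw [mul_zero] at h2
  obtain ⟨ε, hε, hball⟩ := Metric.eventually_nhds_iff.1
    ((h1.eventually (gt_mem_nhds hb)).and (h2.eventually (gt_mem_nhds one_pos)))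
  refine ⟨ε / 2, by positivity, fun W c hW x hx r hr hr' => ?_⟩
  have h3 := hball (y := r) (by rw [Real.dist_eq, sub_zero, abs_of_pos hr]; linarith)
  exact (hW.th_le hE hx hr h3.2).trans h3.1.le

theorem density_HS_le (hE : Module.finrank ℝ E = m + 1) {W : E → ℝ} {c K : ℝ} (hW : TubeG W c K)
    (x : E) {b : ℝ} (hb : om m < b) : ∀ᶠ r in 𝓝[>] (0 : ℝ), th m (HS m W) x r ≤ b := by
  have hom : 0 ≤ om m := integral_nonneg fun p => ker_nonneg _
  by_cases hx : W x = 0
  · obtain ⟨r₀, h0, h⟩ := th_HS_le (K := K) hE hb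
    filter_upwards [Ioo_mem_nhdsGT h0] with r hr using h W c hW x hx r hr.1 hr.2.le
  · have h1 : ∀ᶠ y in 𝓝 x, W y ≠ 0 := hW.cont.continuousAt.eventually_ne hx
    obtain ⟨ε, hε, hball⟩ := Metric.eventually_nhds_iff.1 h1
    filter_upwards [Ioo_mem_nhdsGT hε] with r hr
    have h3 : ∫ y in {z | W z = 0}, ker (r⁻¹ • (y - x)) ∂(μH[m] : Measure E)
        = ∫ y in {z | W z = 0}, (0 : ℝ) ∂(μH[m] : Measure E) := by
      apply setIntegral_congr_fun hW.isClosed.measurableSet
      intro y hy
      simp only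
      apply ker_eq_zero
      rw [norm_smul, norm_inv, Real.norm_eq_abs, abs_of_pos hr.1, ← dist_eq_norm]
      by_contra hcon
      push Not at hcon
      rw [inv_mul_lt_iff₀ hr.1, mul_one] at hcon
      exact hball (hcon.trans hr.2) hy
    unfold th HS
    rw [h3, integral_zero, zero_div]
    linarith

theorem locFin_HS (hE : Module.finrank ℝ E = m + 1) {W : E → ℝ} {c K : ℝ} (hW : TubeG W c K) :
    IsLocallyFiniteMeasure (HS m W) := by
  have hH := isAddHaar_euc m
  refine ⟨fun x => ?_⟩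
  by_cases hx : W x = 0
  · have hK : 0 < K := one_pos.trans_le hW.K1
    have hr : 0 < 1 / (2 * K) := by positivity
    have h2 : K * (1 / (2 * K)) < 1 := by field_simp; norm_num
    refine ⟨closedBall x (1 / (2 * K)), closedBall_mem_nhds x hr,
      (hW.HS_ball_le hE hx hr.le h2).trans_lt ?_⟩
    exact ENNReal.mul_lt_top ENNReal.ofReal_lt_top (isCompact_closedBall _ _).measure_lt_top
  · refine ⟨{z | W z = 0}ᶜ, hW.isClosed.isOpen_compl.mem_nhds hx, ?_⟩
    unfold HS
    rw [Measure.restrict_apply hW.isClosed.measurableSet.compl, compl_inter_self, measure_empty]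
    exact ENNReal.zero_lt_top

end Vale.Agent.P218DY
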